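import Vale.Agent.P352X.TPD.FIN.B
import Vale.Agent.P352Z.P352X.R.GEN.A
import Vale.Agent.P352Z.P352X.R.STRUCT
import Vale.Agent.P352Z.P352X.R.WK
import Vale.Agent.P352Z.P352X.TPD.Spec

open Vale.Agent.P352G

/-!
# P352X, row TPD.FIN: unit tensors and symmetrisation (helper17)
-/

set_option linter.all false

open MeasureTheory Filter Topology Set
open scoped SchwartzMap ComplexConjugate ContDiff

namespace Vale.Agent.P352X.TPD.Fi

open Vale.Agent.P352 Vale.Agent.P352.GF Vale.Agent.P352.BW Api4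
open Vale.Agent.P352.H755 (Tst)
open Vale.Agent.P352Y (mon dc_mon)
open UniformSpace (Completion)

noncomputable section

variable {k : ℕ}

variable {D : Type*} [NormedAddCommGroup D] [InnerProductSpace ℂ D] [GrD D]

theorem ext_symZ {c : CtxZ D} (t : TEN) {w : WW D} (h : ExtZ c w k) :
    ∃ B : Tn (Fin 4 ⊕ Fin k) →ₗ[ℝ] Fam D, (∀ h, DatZ c w ((-1) ^ k) (pol h) (B h)) ∧
      (∀ (s : ℝ) L h, 0 < s → IsLor L → s ^ k • gaZ c s L (B (pb L h)) = B h) ∧
      ∀ I J γ (σ : Equiv.Perm (Fin k)), B (un I J (γ ∘ σ)) = B (un I J γ) := by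
  obtain ⟨B, h1, h2⟩ := h
  exact ⟨B ∘ₗ Sy k, fun h => pol_Sy h ▸ h1 (Sy k h), fun s L h hs hL => by
    simpa only [LinearMap.comp_apply, Sy_pb t] using h2 s L (Sy k h) hs hL,
    fun I J γ σ => congrArg B (Sy_un I J γ σ)⟩

end

end Vale.Agent.P352X.TPD.Fi
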